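import Mathlib
import Vale.Agent.P101.Defs
import Vale.Agent.P101.CentralSeq
import Vale.Agent.P101.Fomega
import Vale.Agent.P101.DimDrop
import Vale.Agent.P101.Stage2
import Vale.Agent.P101.Statement

/-! The character question for the norm central sequence algebra. -/

open Filter TopologicalSpace Vale.Agent.P101

open scoped Matrix.Norms.L2Operator

universe u v

namespace Vale.Agent.Results.P101.NoCharacters

/-- Complementary commuting systems give a contractive homomorphism of every prime dimension drop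
algebra. -/
theorem exists_contractive {F : Type*} [CStarAlgebra F] (hR : Reindex F)
    (h : IsEmpty (F →⋆ₐ[ℂ] ℂ)) {p q : ℕ} (hp : 2 ≤ p) (hq : 2 ≤ q) (hpq : Nat.Coprime p q) :
    ∃ Ψ : dimDrop p q →⋆ₐ[ℂ] F,
      ∀ f, ‖Ψ f‖ ≤ ‖(f : C(unitInterval, Matrix (Fin p × Fin q) (Fin p × Fin q) ℂ))‖ := by
  let : PartialOrder F := CStarAlgebra.spectralOrder F
  have : StarOrderedRing F := CStarAlgebra.spectralOrderedRing F
  obtain ⟨k, hk, -, hpk, hqk⟩ := exists_dvd_dvd_succ (by omega) (by omega) hpq 0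
  have : NeZero k := ⟨by omega⟩
  obtain ⟨P, Q, hP, hQ, hc, hu, h0, h1⟩ := exists_pair_of_noChar hR h hk
  exact exists_hom_dimDrop_coprime (by omega) P Q hP hQ hc hu h0 h1 hpk hqk

/-- For a nonzero unital separable C*-algebra `A` and a free ultrafilter `ω`, the central sequence
algebra has no characters iff every prime dimension drop algebra maps unitally into it, iff any
given inductive limit of prime dimension drop algebras does. -/
theorem result {A : Type u} [CStarAlgebra A] [Nontrivial A] [SeparableSpace A]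
    (ω : Ultrafilter ℕ) (hω : (ω : Filter ℕ) ≤ cofinite) :
    (NoCharacter A ω ↔ ∀ p q : ℕ, 2 ≤ p → 2 ≤ q → Nat.Coprime p q → DimDropMaps A ω p q) ∧
    ∀ (B : Type v) [CStarAlgebra B], IsDimDropLimit B →
      (NoCharacter A ω ↔ MapsUnitally A ω B) := by
  refine ⟨⟨fun h p q hp hq hpq => ?_, fun h => ?_⟩, fun B _ hB => ⟨fun h => ?_, fun h => ?_⟩⟩
  · obtain ⟨Ψ, -⟩ := exists_contractive (reindex_centralSeq hω) h hp hq hpq
    exact ⟨Ψ⟩
  · obtain ⟨Ψ⟩ := h 2 3 le_rfl (by norm_num) (by norm_num)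
    exact isEmpty_char_of_hom le_rfl (by norm_num) Ψ
  · obtain ⟨hBs, S, hS, hd, ψ, hψ⟩ := exists_local hB.isPrimeDimDropLimit fun p q hp hq hpq =>
      exists_contractive (reindex_centralSeq hω) h hp hq hpq
    obtain ⟨θ, -⟩ := exists_hom_of_local hω B S hS hd ψ hψ ∅ Set.countable_empty
    exact ⟨θ⟩
  · obtain ⟨θ⟩ := h
    obtain ⟨S, hS, -⟩ := hB
    obtain ⟨p, q, hp, hq, -, e, -, -⟩ := (hS 0).1
    exact isEmpty_char_of_hom hp hq (θ.comp e)

end Vale.Agent.Results.P101.NoCharacters
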